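import Vale.Agent.P192.Treewidth.Nest

/-!
# P192: finitely presented periodic groups of bounded automorphisms of rooted trees are finite

An automorphism of the tree of words is bounded when the number of its nontrivial sections on a
level does not depend on the level.
-/

namespace Vale.Agent.P192.Treewidth

/-- A homomorphism from a finitely generated group with orbits of bounded size has finite image. -/
theorem finite_range_of_orbits {G : Type*} [Group G] [Group.FG G] {α : Type*}
    (φ : G →* Equiv.Perm α) {M : ℕ}
    (hM : ∀ x : α, ∃ s : Finset α, s.card ≤ M ∧ ∀ g : G, φ g x ∈ s) : Finite φ.range := by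
  classical
  let A : MulAction G α := MulAction.compHom α φ
  obtain ⟨S, hS⟩ := (Group.fg_def.mp ‹Group.FG G›)
  have hfinHom : Finite (G →* Equiv.Perm (Fin M)) := by
    refine Finite.of_injective (fun (f : G →* Equiv.Perm (Fin M)) (s : S) => f s) ?_
    intro f f' h
    exact MonoidHom.eq_of_eqOn_dense hS fun s hs => congrFun h ⟨s, hs⟩
  have sep : ∀ g : G, (∀ f : G →* Equiv.Perm (Fin M), f g = 1) → φ g = 1 := by
    intro g hg
    refine Equiv.ext fun x => ?_
    obtain ⟨s, hs, hmem⟩ := hM x
    have horb : (MulAction.orbit G x).Finite := s.finite_toSet.subset fun y ⟨k, hk⟩ => hk ▸ hmem k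
    have := horb.fintype
    obtain ⟨ι⟩ : Nonempty (MulAction.orbit G x ↪ Fin M) := by
      refine Function.Embedding.nonempty_of_card_le ?_
      rw [Fintype.card_fin, ← Nat.card_eq_fintype_card, Nat.card_coe_set_eq]
      refine le_trans (Set.ncard_le_ncard (fun y hy => ?_) s.finite_toSet)
        ((Set.ncard_coe_finset s).le.trans hs)
      obtain ⟨k, rfl⟩ := hy
      exact hmem k
    have h1 := hg ((Equiv.Perm.viaEmbeddingHom ι).comp
      (MulAction.toPermHom G (MulAction.orbit G x)))
    rw [MonoidHom.comp_apply, ← map_one (Equiv.Perm.viaEmbeddingHom ι)] at h1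
    have h2 := Equiv.congr_fun (Equiv.Perm.viaEmbeddingHom_injective ι h1)
      ⟨x, MulAction.mem_orbit_self x⟩
    exact congrArg Subtype.val h2
  let Θ : G →* ((G →* Equiv.Perm (Fin M)) → Equiv.Perm (Fin M)) :=
    MonoidHom.mk' (fun g f => f g) fun a b => funext fun f => map_mul f a b
  refine Finite.of_injective (fun y : φ.range => Θ (Classical.choose y.2)) ?_
  intro y y' h
  refine Subtype.ext ?_
  rw [← Classical.choose_spec y.2, ← Classical.choose_spec y'.2]
  have := sep ((Classical.choose y'.2)⁻¹ * Classical.choose y.2) fun f => by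
    rw [map_mul, map_inv, inv_mul_eq_one]
    exact (congrFun h f).symm
  rw [map_mul, map_inv, inv_mul_eq_one] at this
  exact this.symm

variable {d : ℕ}

/-- Cylinders of bounded boundary give balanced separators. -/
theorem separated_of_cylinders {G : Type*} [Group G] {X : Type} [MulAction G X] (pos : X → List (Fin d))
    (hinj : Function.Injective pos) {n : ℕ} (hpos : ∀ x, (pos x).length = n) {T : Finset G}
    (hT : ∀ s ∈ T, s⁻¹ ∈ T) {w : ℕ} (hw : 1 ≤ w)
    (hcut : ∀ (k : ℕ) (q : List (Fin d)),
      ∃ B : Finset X, B.card ≤ w ∧ ∀ y, (pos y).drop k = q →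
        ∀ s ∈ T, (pos (s • y)).drop k ≠ q → y ∈ B) :
    Separated T X ((d + 1) * w) := by
  classical
  intro W
  rcases W.eq_empty_or_nonempty with rfl | hW
  · exact ⟨∅, by simp, fun y _ K hK _ => by simp [Finset.subset_empty.mp hK]⟩
  let cnt : ℕ → List (Fin d) → ℕ := fun k q => (W.filter fun z => (pos z).drop k = q).card
  have hex : ∃ k, ∃ q, W.card < 2 * cnt k q := by
    refine ⟨n, [], ?_⟩
    have : W.filter (fun z => (pos z).drop n = []) = W :=
      Finset.filter_true_of_mem fun z _ => List.drop_eq_nil_of_le (hpos z).le
    show W.card < 2 * (W.filter fun z => (pos z).drop n = []).card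
    rw [this]
    have := hW.card_pos
    omega
  obtain ⟨q, hq⟩ := Nat.find_spec hex
  have hkn : Nat.find hex ≤ n := Nat.find_le (by
    refine ⟨[], ?_⟩
    have : W.filter (fun z => (pos z).drop n = []) = W :=
      Finset.filter_true_of_mem fun z _ => List.drop_eq_nil_of_le (hpos z).le
    show W.card < 2 * (W.filter fun z => (pos z).drop n = []).card
    rw [this]
    have := hW.card_pos
    omega)
  cases hk : Nat.find hex with
  | zero =>
    rw [hk] at hq
    have h1 : cnt 0 q ≤ 1 := Finset.card_le_one.mpr fun a ha b hb => hinj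
      (by simpa using (Finset.mem_filter.mp ha).2.trans (Finset.mem_filter.mp hb).2.symm)
    refine ⟨W, ?_, fun y hy K hK hr => ?_⟩
    · have : W.card ≤ 1 := by omega
      nlinarith
    · rcases K.eq_empty_or_nonempty with rfl | ⟨z, hz⟩
      · simp
      · exact absurd (hK hz) (Reach.mem (hr z hz) hy)
  | succ k =>
    rw [hk] at hq hkn
    have hmin : ∀ q', 2 * cnt k q' ≤ W.card := fun q' =>
      Nat.le_of_not_lt fun h => Nat.find_min hex (show k < Nat.find hex by omega) ⟨q', h⟩
    choose B hBc hB using hcut
    refine ⟨B (k + 1) q ∪ (Finset.univ : Finset (Fin d)).biUnion (fun a => B k (a :: q)), ?_,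
      fun y hy K hK hr => ?_⟩
    · refine (Finset.card_union_le _ _).trans ?_
      have := Finset.card_biUnion_le_card_mul (Finset.univ : Finset (Fin d))
        (fun a => B k (a :: q)) w fun a _ => hBc _ _
      rw [Finset.card_univ, Fintype.card_fin] at this
      have := hBc (k + 1) q
      rw [Nat.add_mul, Nat.one_mul]
      omega
    · set Z := B (k + 1) q ∪ (Finset.univ : Finset (Fin d)).biUnion (fun a => B k (a :: q))
      by_cases hyq : (pos y).drop (k + 1) = q
      · obtain ⟨a, ha⟩ : ∃ a, (pos y).drop k = a :: q := by
          have h1 : k < (pos y).length := by rw [hpos]; omega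
          exact ⟨(pos y)[k], by rw [List.drop_eq_getElem_cons h1, hyq]⟩
        have stay : ∀ z, Reach T ((Z : Set X)ᶜ) y z → (pos z).drop k = a :: q := by
          intro z hz
          induction hz with
          | refl => exact ha
          | tail _ h ih =>
            obtain ⟨h1, -, s, hs, rfl⟩ := h
            by_contra hne
            exact h1 (Finset.mem_union_right _
              (Finset.mem_biUnion.mpr ⟨a, Finset.mem_univ _, hB k (a :: q) _ ih s hs hne⟩))
        refine le_trans (Nat.mul_le_mul_left 2 (Finset.card_le_card ?_)) (hmin (a :: q))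
        exact fun z hz => Finset.mem_filter.mpr ⟨hK hz, stay z (hr z hz)⟩
      · have stay : ∀ z, Reach T ((Z : Set X)ᶜ) y z → (pos z).drop (k + 1) ≠ q := by
          intro z hz
          induction hz with
          | refl => exact hyq
          | tail _ h ih =>
            obtain ⟨-, h2, s, hs, rfl⟩ := h
            intro he
            exact h2 (Finset.mem_union_left _ (hB (k + 1) q _ he s⁻¹ (hT s hs)
              (by rw [inv_smul_smul]; exact ih)))
        have hsub : K ⊆ W.filter fun z => ¬(pos z).drop (k + 1) = q :=
          fun z hz => Finset.mem_filter.mpr ⟨hK hz, stay z (hr z hz)⟩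
        have h3 := Finset.card_le_card hsub
        have h4 := Finset.card_filter_add_card_filter_not (s := W)
          (fun z => (pos z).drop (k + 1) = q)
        have h5 : cnt (k + 1) q = (W.filter fun z => (pos z).drop (k + 1) = q).card := rfl
        omega

/-- The section of a permutation of words at a word. -/
def sec {G : Type*} [Group G] (φ : G →* Equiv.Perm (List (Fin d))) (g : G) (v : List (Fin d)) :
    List (Fin d) → List (Fin d) :=
  fun u => (φ g (v ++ u)).drop v.length

/-- Every homomorphism of a finitely presented periodic group into the bounded automorphisms of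
a rooted tree has finite image. -/
theorem finite_bounded_automata {G : Type*} [Group G] [hfp : Group.IsFinitelyPresented G]
    (ht : IsMulTorsion G) (φ : G →* Equiv.Perm (List (Fin d)))
    (hlen : ∀ g v, (φ g v).length = v.length)
    (hbdd : ∀ g, ∃ C, ∀ n, {v | v.length = n ∧ sec φ g v ≠ id}.ncard ≤ C) :
    Finite φ.range := by
  classical
  have hfg : Group.FG G := by
    obtain ⟨m, π, hπ, -⟩ := hfp.out
    exact Group.fg_of_surjective hπ
  obtain ⟨S, hS⟩ := Group.fg_def.mp hfg
  set T : Finset G := S ∪ S.image (·⁻¹) with hTdef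
  have hT : ∀ s ∈ T, s⁻¹ ∈ T := by
    intro s hs
    simp only [hTdef, Finset.mem_union, Finset.mem_image] at hs ⊢
    rcases hs with h | ⟨a, ha, rfl⟩
    · exact Or.inr ⟨s, h, rfl⟩
    · exact Or.inl (by rwa [inv_inv])
  have hgen : Subgroup.closure (T : Set G) = ⊤ := by
    refine eq_top_iff.mpr (hS ▸ Subgroup.closure_mono fun s hs => ?_)
    exact Finset.mem_union_left _ hs
  choose C hC using hbdd
  set w0 := ∑ s ∈ T, C s + 1
  obtain ⟨M, hM⟩ := bounded_size.{0} ht hT hgen ((d + 1) * w0)
  refine finite_range_of_orbits φ (M := M) fun v₀ => ?_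
  let A : MulAction G (List (Fin d)) := MulAction.compHom _ φ
  have horb : ∀ y ∈ MulAction.orbit G v₀, y.length = v₀.length := fun y ⟨g, hg⟩ => by
    rw [← hg]; exact hlen g v₀
  have hfin : (MulAction.orbit G v₀).Finite :=
    (List.finite_length_eq (Fin d) v₀.length).subset horb
  have : Finite (MulAction.orbit G v₀) := hfin.to_subtype
  have hsep : Separated T (MulAction.orbit G v₀) ((d + 1) * w0) := by
    refine separated_of_cylinders (X := MulAction.orbit G v₀) (fun y => (y : List (Fin d)))
      Subtype.val_injective
      (n := v₀.length) (fun y => horb y y.2) hT (Nat.le_add_left 1 _) fun k q => ?_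
    let BS : Set (MulAction.orbit G v₀) :=
      {y | (y : List (Fin d)).drop k = q ∧
        ∃ s ∈ T, ((s • y : MulAction.orbit G v₀) : List (Fin d)).drop k ≠ q}
    refine ⟨(Set.toFinite BS).toFinset, ?_, fun y hy s hs hne =>
      (Set.Finite.mem_toFinset _).mpr ⟨hy, s, hs, hne⟩⟩
    rw [← Set.ncard_eq_toFinset_card]
    by_cases hk : k ≤ v₀.length
    · let bad : Finset (List (Fin d)) := T.biUnion fun s =>
        ((List.finite_length_eq (Fin d) k).subset
          (show {v | v.length = k ∧ sec φ s v ≠ id} ⊆ {v | v.length = k} from fun v hv => hv.1)).toFinset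
      have hbad : bad.card ≤ ∑ s ∈ T, C s := by
        refine Finset.card_biUnion_le.trans (Finset.sum_le_sum fun s _ => ?_)
        refine le_trans (le_of_eq ?_) (hC s k)
        exact (Set.ncard_eq_toFinset_card _ _).symm
      refine le_trans (Set.ncard_le_ncard_of_injOn (fun y => (y : List (Fin d)).take k) ?_ ?_
        bad.finite_toSet) ?_
      · rintro y ⟨hy, s, hs, hne⟩
        have hk' : ((y : List (Fin d)).take k).length = k := by
          rw [List.length_take, horb y y.2]
          omega
        refine Finset.mem_biUnion.mpr ⟨s, hs, (Set.Finite.mem_toFinset _).mpr ⟨hk', fun hid => ?_⟩⟩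
        have h1 := congrFun hid q
        simp only [sec, id, hk'] at h1
        rw [← hy, List.take_append_drop, hy] at h1
        exact hne h1
      · intro y hy y' hy' e
        refine Subtype.ext ?_
        rw [← List.take_append_drop k (y : List (Fin d)), ← List.take_append_drop k (y' : List (Fin d)),
          hy.1, hy'.1]
        exact congrArg (· ++ q) e
      · rw [Set.ncard_coe_finset]
        omega
    · have : BS = ∅ := by
        refine Set.eq_empty_of_forall_notMem ?_
        rintro y ⟨hy, s, hs, hne⟩
        rw [List.drop_eq_nil_of_le (by rw [horb _ y.2]; omega)] at hy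
        exact hne (by rw [List.drop_eq_nil_of_le (by rw [horb _ (s • y).2]; omega), hy])
      rw [this, Set.ncard_empty]
      exact Nat.zero_le _
  have hcard := hM (MulAction.orbit G v₀) hsep
  refine ⟨hfin.toFinset, ?_, fun g => hfin.mem_toFinset.mpr ⟨g, rfl⟩⟩
  rwa [← Set.ncard_eq_toFinset_card _ hfin, ← Nat.card_coe_set_eq]

end Vale.Agent.P192.Treewidth
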