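import Vale.Agent.P192.Treewidth.Separator

/-!
# P192: bounded treewidth gives deep nests
-/

namespace Vale.Agent.P192.Treewidth

universe u

variable {G : Type*} [Group G] {X : Type u} [MulAction G X]

/-- A nest of depth `t` starting at the complement of `C`. -/
def HasNest (T : Finset G) (B : ℕ) (C : Finset X) (t : ℕ) : Prop :=
  ∃ F : ℕ → Set X, F 0 = (C : Set X)ᶜ ∧
    (∀ n ≤ t, {x | x ∈ F n ∧ ∃ s ∈ T, s • x ∉ F n}.ncard ≤ B) ∧
    (∀ n < t, ∀ x ∈ F n, x ∈ F (n + 1) ∧ ∀ s ∈ T, s • x ∈ F (n + 1)) ∧ F t ≠ Set.univ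

/-- The sizes forcing a nest of depth `t`. -/
def need (B : ℕ) : ℕ → ℕ
  | 0 => 1
  | t + 1 => B + B * need B t + 1

theorem exists_nest [Finite X] [MulAction.IsPretransitive G X] {T : Finset G}
    (hT : ∀ s ∈ T, s⁻¹ ∈ T) (hgen : Subgroup.closure (T : Set G) = ⊤) {w i B0 B : ℕ}
    (hsep : Separated T X w) (hi : 2 * T.card ≤ 2 ^ i) (hB0 : 2 ^ (i + 1) * w ≤ B0) (h1 : 1 ≤ B0)
    (hB : (T.card + 1) * (B0 + 2 * B0 * T.card) ≤ B) :
    ∀ (t : ℕ) (C : Finset X), need B t ≤ C.card →
      {x | x ∈ (C : Set X)ᶜ ∧ ∃ s ∈ T, s • x ∉ (C : Set X)ᶜ}.ncard ≤ 2 * B0 →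
      HasNest T (2 * B0) C t
  | 0, C, hC, hW => by
    refine ⟨fun _ => (C : Set X)ᶜ, rfl, fun n _ => hW, fun n hn => absurd hn (by omega), ?_⟩
    intro h
    obtain ⟨x, hx⟩ : C.Nonempty := Finset.card_pos.mp hC
    exact (Set.ext_iff.mp h x).mpr trivial hx
  | t + 1, C, hC, hW => by
    classical
    let WS : Set X := {x | x ∈ (C : Set X)ᶜ ∧ ∃ s ∈ T, s • x ∉ (C : Set X)ᶜ}
    let W : Finset X := (Set.toFinite WS).toFinset
    have hWc : W.card ≤ 2 * B0 := by
      rw [← Set.ncard_eq_toFinset_card]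
      exact hW
    let U : Finset X := (W.biUnion fun x => T.image (· • x)).filter (· ∈ C)
    have hUc : U.card ≤ W.card * T.card :=
      (Finset.card_filter_le _ _).trans
        (Finset.card_biUnion_le_card_mul _ _ _ fun x _ => Finset.card_image_le)
    obtain ⟨Z, hZ, hpart⟩ := exists_small_parts hT hsep U i
    let bag : Finset X := Z ∪ U
    have hbag : bag.card ≤ B0 + 2 * B0 * T.card :=
      (Finset.card_union_le _ _).trans
        (Nat.add_le_add (hZ.trans hB0) (hUc.trans (Nat.mul_le_mul_right _ hWc)))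
    let comp : X → Finset X := fun y =>
      (C \ bag).filter fun z => Reach T (↑(C \ bag) : Set X) y z
    let roots : Finset X := (bag.biUnion fun x => T.image (· • x)).filter (· ∈ C \ bag)
    -- a component has an edge to the bag
    have hexit : ∀ y ∈ C \ bag, ∀ z ∈ comp y, ∀ s ∈ T, s • z ∈ comp y ∨ s • z ∈ bag := by
      intro y hy z hz s hs
      obtain ⟨hzC, hyz⟩ := Finset.mem_filter.mp hz
      by_cases hb : s • z ∈ bag
      · exact Or.inr hb
      by_cases hc : s • z ∈ C
      · refine Or.inl (Finset.mem_filter.mpr ⟨Finset.mem_sdiff.mpr ⟨hc, hb⟩, ?_⟩)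
        exact hyz.tail ⟨hzC, Finset.mem_coe.mpr (Finset.mem_sdiff.mpr ⟨hc, hb⟩), s, hs, rfl⟩
      · exfalso
        have hzU : z ∈ U := by
          refine Finset.mem_filter.mpr ⟨Finset.mem_biUnion.mpr ⟨s • z, ?_, ?_⟩,
            (Finset.mem_sdiff.mp hzC).1⟩
          · refine (Set.Finite.mem_toFinset _).mpr ⟨hc, s⁻¹, hT s hs, fun h => ?_⟩
            rw [inv_smul_smul] at h
            exact h (Finset.mem_sdiff.mp hzC).1
          · exact Finset.mem_image.mpr ⟨s⁻¹, hT s hs, inv_smul_smul s z⟩
        exact (Finset.mem_sdiff.mp hzC).2 (Finset.mem_union_right _ hzU)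
    -- some component is large
    have hbig : ∃ y ∈ C \ bag, need B t ≤ (comp y).card := by
      by_contra hc
      push Not at hc
      have hne : (C \ bag).Nonempty := by
        refine Finset.card_pos.mp (lt_of_lt_of_le ?_ (Finset.le_card_sdiff _ _))
        have : bag.card ≤ B := hbag.trans ((Nat.le_mul_of_pos_left _ (by omega)).trans hB)
        unfold need at hC
        omega
      have hcover : ∀ y ∈ C \ bag, (∀ z, z ∈ comp y) ∨ ∃ r ∈ roots, y ∈ comp r := by
        intro y hy
        by_cases hh : ∃ z ∈ comp y, ∃ s ∈ T, s • z ∈ bag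
        · obtain ⟨z, hz, s, hs, hb⟩ := hh
          obtain ⟨hzC, hyz⟩ := Finset.mem_filter.mp hz
          refine Or.inr ⟨z, Finset.mem_filter.mpr ⟨Finset.mem_biUnion.mpr ⟨_, hb, ?_⟩, hzC⟩,
            Finset.mem_filter.mpr ⟨hy, hyz.symm hT⟩⟩
          exact Finset.mem_image.mpr ⟨s⁻¹, hT s hs, inv_smul_smul s z⟩
        · push Not at hh
          refine Or.inl fun z => eq_univ_of_closed (A := {z | z ∈ comp y}) hT hgen
            (fun s hs x hx => ?_) (Finset.mem_filter.mpr ⟨hy, Relation.ReflTransGen.refl⟩) z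
          exact (hexit y hy x hx s hs).resolve_right (hh x hx s hs)
      have hsdiff : (C \ bag).card ≤ (T.card * bag.card + 1) * need B t := by
        by_cases hall : ∃ y ∈ C \ bag, ∀ z, z ∈ comp y
        · obtain ⟨y, hy, hz⟩ := hall
          refine le_trans ((Finset.card_le_card fun z _ => hz z).trans (hc y hy).le) ?_
          exact Nat.le_mul_of_pos_left _ (by omega)
        · push Not at hall
          have hsub : C \ bag ⊆ roots.biUnion comp := fun y hy => by
            rcases hcover y hy with h | ⟨r, hr, hyr⟩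
            · obtain ⟨z, hz⟩ := hall y hy
              exact absurd (h z) hz
            · exact Finset.mem_biUnion.mpr ⟨r, hr, hyr⟩
          refine (Finset.card_le_card hsub).trans
            ((Finset.card_biUnion_le_card_mul _ _ (need B t) fun r hr =>
              (hc r (Finset.mem_filter.mp hr).2).le).trans (Nat.mul_le_mul_right _ ?_))
          refine (Finset.card_filter_le _ _).trans ((Finset.card_biUnion_le_card_mul _ _ _
            fun x _ => Finset.card_image_le).trans ?_)
          rw [Nat.mul_comm]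
          omega
      have hC' : C.card ≤ bag.card + (C \ bag).card := by
        rw [Finset.card_sdiff]
        have := Finset.card_le_card (Finset.inter_subset_left (s₁ := bag) (s₂ := C))
        omega
      have hB' : T.card * bag.card + 1 ≤ B := by
        refine le_trans ?_ hB
        have := Nat.mul_le_mul_left T.card hbag
        rw [Nat.add_mul, Nat.one_mul]
        omega
      unfold need at hC
      have := Nat.mul_le_mul_right (need B t) hB'
      have hbB : bag.card ≤ B := hbag.trans ((Nat.le_mul_of_pos_left _ (by omega)).trans hB)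
      omega
    obtain ⟨y, hy, hbig⟩ := hbig
    -- its interface is small
    have hyZ : y ∉ Z := fun h => (Finset.mem_sdiff.mp hy).2 (Finset.mem_union_left _ h)
    have hCs : (↑(C \ bag) : Set X) ⊆ (Z : Set X)ᶜ := fun z hz h =>
      (Finset.mem_sdiff.mp hz).2 (Finset.mem_union_left _ h)
    let K : Finset X := U.filter fun u => Reach T ((Z : Set X)ᶜ) y u
    have hK : 2 ^ i * K.card ≤ U.card :=
      hpart y hyZ K (Finset.filter_subset _ _) fun z hz => (Finset.mem_filter.mp hz).2
    have hW' : {x | x ∈ (comp y : Set X)ᶜ ∧ ∃ s ∈ T, s • x ∉ (comp y : Set X)ᶜ}.ncard ≤ 2 * B0 := by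
      have hsub : {x | x ∈ (comp y : Set X)ᶜ ∧ ∃ s ∈ T, s • x ∉ (comp y : Set X)ᶜ} ⊆
          (↑(Z ∪ K) : Set X) := by
        rintro x ⟨hx, s, hs, hsx⟩
        rw [Set.mem_compl_iff, not_not, Finset.mem_coe] at hsx
        have hxb : x ∈ bag := by
          have := hexit y hy _ hsx s⁻¹ (hT s hs)
          rw [inv_smul_smul] at this
          exact this.resolve_left hx
        by_cases hxZ : x ∈ Z
        · exact Finset.mem_union_left _ hxZ
        refine Finset.mem_union_right _ (Finset.mem_filter.mpr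
          ⟨(Finset.mem_union.mp hxb).resolve_left hxZ, ?_⟩)
        obtain ⟨hsC, hys⟩ := Finset.mem_filter.mp hsx
        exact (hys.mono hCs).tail ⟨hCs hsC, hxZ, s⁻¹, hT s hs, inv_smul_smul s x⟩
      refine (Set.ncard_le_ncard hsub (Finset.finite_toSet _)).trans ?_
      rw [Set.ncard_coe_finset]
      refine (Finset.card_union_le _ _).trans ?_
      have hKB : K.card ≤ B0 := by
        rcases Nat.eq_zero_or_pos T.card with h | h
        · have : U.card = 0 := by rw [h] at hUc; simpa using hUc
          have : K.card ≤ U.card := Finset.card_filter_le _ _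
          omega
        · have h2 : 2 * T.card * K.card ≤ W.card * T.card :=
            (Nat.mul_le_mul_right _ hi).trans (hK.trans hUc)
          nlinarith
      omega
    obtain ⟨F, hF0, hFb, hFg, hFt⟩ :=
      exists_nest hT hgen hsep hi hB0 h1 hB t (comp y) hbig hW'
    refine ⟨fun n => Nat.casesOn n (C : Set X)ᶜ F, rfl, fun n hn => ?_, fun n hn => ?_, hFt⟩
    · cases n with
      | zero => exact hW
      | succ n => exact hFb n (by omega)
    · cases n with
      | zero =>
        intro x hx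
        have hout : ∀ z, z ∉ C → z ∈ (F 0) := fun z hz => by
          rw [hF0]
          exact fun h => hz (Finset.mem_sdiff.mp (Finset.mem_filter.mp h).1).1
        refine ⟨hout x hx, fun s hs => ?_⟩
        by_cases hsx : s • x ∈ C
        · rw [show (fun n => Nat.casesOn n (C : Set X)ᶜ F : ℕ → Set X) (0 + 1) = F 0 from rfl, hF0]
          intro h
          have hsU : s • x ∈ U := Finset.mem_filter.mpr ⟨Finset.mem_biUnion.mpr
            ⟨x, (Set.Finite.mem_toFinset _).mpr ⟨hx, s, hs, fun h => h hsx⟩,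
              Finset.mem_image_of_mem _ hs⟩, hsx⟩
          exact (Finset.mem_sdiff.mp (Finset.mem_filter.mp h).1).2 (Finset.mem_union_right _ hsU)
        · exact hout _ hsx
      | succ n => exact hFg n (by omega)

/-- Finite Schreier graphs of bounded treewidth of a finitely presented periodic group have
bounded size. -/
theorem bounded_size [Group.IsFinitelyPresented G] (ht : IsMulTorsion G) {T : Finset G}
    (hT : ∀ s ∈ T, s⁻¹ ∈ T) (hgen : Subgroup.closure (T : Set G) = ⊤) (w : ℕ) :
    ∃ M : ℕ, ∀ (X : Type u) [MulAction G X] [MulAction.IsPretransitive G X] [Finite X],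
      Separated T X w → Nat.card X ≤ M := by
  classical
  obtain ⟨i, hi⟩ : ∃ i, 2 * T.card ≤ 2 ^ i := ⟨2 * T.card, Nat.lt_two_pow_self.le⟩
  set B0 := 2 ^ (i + 1) * w + 1 with hB0
  set B := (T.card + 1) * (B0 + 2 * B0 * T.card) with hB
  obtain ⟨N, hN⟩ := Vale.Agent.P192.Bottleneck.no_nest.{u} ht hgen (2 * B0)
  refine ⟨need B N + 1, fun X _ _ _ hsep => ?_⟩
  by_contra hc
  push Not at hc
  have := Fintype.ofFinite X
  rw [Nat.card_eq_fintype_card] at hc
  obtain ⟨x₀⟩ : Nonempty X := Fintype.card_pos_iff.mp (by omega)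
  have hCc : need B N ≤ (Finset.univ.erase x₀ : Finset X).card := by
    rw [Finset.card_erase_of_mem (Finset.mem_univ _), Finset.card_univ]
    omega
  have hco : ((Finset.univ.erase x₀ : Finset X) : Set X)ᶜ = {x₀} := by
    ext z
    simp
  obtain ⟨F, hF0, hFb, hFg, hFN⟩ := exists_nest hT hgen (B0 := B0) (B := B) hsep hi (by omega)
    (by omega) le_rfl N (Finset.univ.erase x₀) hCc (by
      rw [hco]
      refine (Set.ncard_le_ncard (t := {x₀}) fun z hz => hz.1).trans ?_
      rw [Set.ncard_singleton]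
      omega)
  refine hFN (hN X F ⟨x₀, by rw [hF0, hco]; rfl⟩ (fun n hn => ⟨Set.toFinite _, ?_⟩)
    fun n hn x hx => ⟨(hFg n hn x hx).1, fun s hs =>
      ⟨(hFg n hn x hx).2 s hs, (hFg n hn x hx).2 s⁻¹ (hT s hs)⟩⟩)
  refine le_trans (Set.ncard_le_ncard ?_) (hFb n hn)
  rintro x ⟨hx, s, hs, h | h⟩
  · exact ⟨hx, s, hs, h⟩
  · exact ⟨hx, s⁻¹, hT s hs, h⟩

end Vale.Agent.P192.Treewidth
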