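import Vale.Agent.P192.Bottleneck.Main

/-!
# P192: finite Schreier graphs with balanced separators of bounded size

Iterated separators cut such a graph into a tree of bags of bounded size. A long branch of this
tree is a deep nest of sets with bounded boundary.
-/

namespace Vale.Agent.P192.Treewidth

universe u

variable {G : Type*} [Group G] {X : Type u} [MulAction G X]

/-- An edge inside `P`. -/
def Link (T : Finset G) (P : Set X) (a b : X) : Prop := a ∈ P ∧ b ∈ P ∧ ∃ s ∈ T, s • a = b

/-- Connected inside `P`. -/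
def Reach (T : Finset G) (P : Set X) : X → X → Prop := Relation.ReflTransGen (Link T P)

theorem Reach.mono {T : Finset G} {P Q : Set X} (h : P ⊆ Q) {a b : X} (hr : Reach T P a b) :
    Reach T Q a b :=
  Relation.ReflTransGen.mono (fun _ _ ⟨h1, h2, h3⟩ => ⟨h h1, h h2, h3⟩) _ _ hr

theorem Reach.mem {T : Finset G} {P : Set X} {a b : X} (hr : Reach T P a b) (ha : a ∈ P) :
    b ∈ P := by
  induction hr with
  | refl => exact ha
  | tail _ h _ => exact h.2.1

theorem Reach.symm {T : Finset G} (hT : ∀ s ∈ T, s⁻¹ ∈ T) {P : Set X} {a b : X}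
    (hr : Reach T P a b) : Reach T P b a := by
  induction hr with
  | refl => exact Relation.ReflTransGen.refl
  | tail _ h ih =>
    obtain ⟨h1, h2, s, hs, rfl⟩ := h
    exact Relation.ReflTransGen.head ⟨h2, h1, s⁻¹, hT s hs, inv_smul_smul s _⟩ ih

/-- Every set of points has a balanced separator with at most `w` points. -/
def Separated (T : Finset G) (X : Type*) [MulAction G X] (w : ℕ) : Prop :=
  ∀ W : Finset X, ∃ Z : Finset X, Z.card ≤ w ∧ ∀ y : X, y ∉ Z → ∀ K : Finset X, K ⊆ W →
    (∀ z ∈ K, Reach T ((Z : Set X)ᶜ) y z) → 2 * K.card ≤ W.card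

/-- A set closed under the generators is everything or empty. -/
theorem eq_univ_of_closed [MulAction.IsPretransitive G X] {T : Finset G}
    (hT : ∀ s ∈ T, s⁻¹ ∈ T) (hgen : Subgroup.closure (T : Set G) = ⊤) {A : Set X}
    (hA : ∀ s ∈ T, ∀ x ∈ A, s • x ∈ A) {y : X} (hy : y ∈ A) (x : X) : x ∈ A := by
  obtain ⟨g, rfl⟩ := MulAction.exists_smul_eq G y x
  have : ∀ x, x ∈ A ↔ g • x ∈ A := by
    refine Subgroup.closure_induction (p := fun g _ => ∀ x, x ∈ A ↔ g • x ∈ A) ?_ ?_ ?_ ?_
      (hgen ▸ Subgroup.mem_top g)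
    · intro s hs x
      exact ⟨hA s hs x, fun h => by simpa using hA s⁻¹ (hT s hs) _ h⟩
    · simp
    · intro a b _ _ ha hb x
      rw [mul_smul, hb x, ha]
    · intro a _ ha x
      rw [ha (a⁻¹ • x), smul_inv_smul]
  exact (this y).mp hy

/-- Separators cutting a set into parts of any given fraction. -/
theorem exists_small_parts {T : Finset G} (hT : ∀ s ∈ T, s⁻¹ ∈ T) {w : ℕ}
    (hsep : Separated T X w) (U : Finset X) :
    ∀ i : ℕ, ∃ Z : Finset X, Z.card ≤ 2 ^ (i + 1) * w ∧ ∀ y : X, y ∉ Z → ∀ K : Finset X, K ⊆ U →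
      (∀ z ∈ K, Reach T ((Z : Set X)ᶜ) y z) → 2 ^ i * K.card ≤ U.card
  | 0 => ⟨∅, by simp, fun y _ K hK _ => by simpa using Finset.card_le_card hK⟩
  | i + 1 => by
    classical
    obtain ⟨Z, hZ, hpart⟩ := exists_small_parts hT hsep U i
    let piece : X → Finset X := fun u => U.filter fun z => Reach T ((Z : Set X)ᶜ) u z
    let H : Finset (Finset X) :=
      (U.image piece).filter fun P => U.card < 2 ^ (i + 1) * P.card
    choose sep hsepc hseph using hsep
    have hdisj : (H : Set (Finset X)).PairwiseDisjoint id := by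
      intro P hP Q hQ hne
      simp only [H, Finset.coe_filter, Finset.mem_image, Set.mem_ofPred_eq] at hP hQ
      obtain ⟨⟨a, -, rfl⟩, -⟩ := hP
      obtain ⟨⟨b, -, rfl⟩, -⟩ := hQ
      refine Finset.disjoint_left.mpr fun z hza hzb => hne ?_
      simp only [id, piece, Finset.mem_filter] at hza hzb
      have hab : Reach T ((Z : Set X)ᶜ) a b := hza.2.trans (hzb.2.symm hT)
      ext t
      simp only [piece, Finset.mem_filter]
      exact and_congr_right fun _ => ⟨fun h => (hab.symm hT).trans h, fun h => hab.trans h⟩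
    have hHU : ∀ P ∈ H, P ⊆ U := by
      intro P hP
      simp only [H, Finset.mem_filter, Finset.mem_image] at hP
      obtain ⟨⟨a, -, rfl⟩, -⟩ := hP
      exact Finset.filter_subset _ _
    by_cases hU : H = ∅
    · refine ⟨Z, hZ.trans (Nat.mul_le_mul_right _ (Nat.pow_le_pow_right (by norm_num) (by omega))),
        fun y hy K hK hr => ?_⟩
      by_contra hc
      push Not at hc
      obtain ⟨u, hu⟩ : K.Nonempty := Finset.card_pos.mp (Nat.pos_of_ne_zero fun h => by simp [h] at hc)
      have hKP : K ⊆ piece u := fun z hz => Finset.mem_filter.mpr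
        ⟨hK hz, ((hr u hu).symm hT).trans (hr z hz)⟩
      have : piece u ∈ H := Finset.mem_filter.mpr ⟨Finset.mem_image_of_mem _ (hK hu),
        hc.trans_le (Nat.mul_le_mul_left _ (Finset.card_le_card hKP))⟩
      simp [hU] at this
    · have hH2 : H.card ≤ 2 ^ (i + 1) := by
        by_contra hc
        have h1 : (H.biUnion id).card = ∑ P ∈ H, P.card := Finset.card_biUnion hdisj
        have h2 : (H.biUnion id).card ≤ U.card :=
          Finset.card_le_card (Finset.biUnion_subset.mpr hHU)
        have h3 : H.card * (U.card + 1) ≤ ∑ P ∈ H, 2 ^ (i + 1) * P.card := by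
          refine le_trans (le_of_eq (by simp)) (Finset.sum_le_sum (f := fun _ => U.card + 1) ?_)
          exact fun P hP => (Finset.mem_filter.mp hP).2
        rw [← Finset.mul_sum, ← h1] at h3
        have h4 : 2 ^ (i + 1) * (H.biUnion id).card ≤ 2 ^ (i + 1) * U.card :=
          Nat.mul_le_mul_left _ h2
        have h5 := Nat.mul_le_mul_right (U.card + 1)
          (show 2 ^ (i + 1) + 1 ≤ H.card from Nat.succ_le_of_lt (not_le.mp hc))
        generalize 2 ^ (i + 1) = p at h3 h4 h5
        have h6 : (p + 1) * (U.card + 1) ≤ p * U.card := h5.trans (h3.trans h4)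
        nlinarith
      refine ⟨Z ∪ H.biUnion sep, ?_, fun y hy K hK hr => ?_⟩
      · refine (Finset.card_union_le _ _).trans ?_
        have := Finset.card_biUnion_le_card_mul H sep w fun P _ => hsepc P
        rw [pow_succ 2 (i + 1), Nat.mul_comm (2 ^ (i + 1)) 2, Nat.two_mul, Nat.add_mul]
        exact Nat.add_le_add hZ (this.trans (Nat.mul_le_mul_right _ hH2))
      · by_contra hc
        push Not at hc
        obtain ⟨u, hu⟩ : K.Nonempty :=
          Finset.card_pos.mp (Nat.pos_of_ne_zero fun h => by simp [h] at hc)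
        have hsub : ((↑(Z ∪ H.biUnion sep) : Set X))ᶜ ⊆ (Z : Set X)ᶜ := fun z hz h =>
          hz (Finset.mem_union_left _ h)
        have hKP : K ⊆ piece u := fun z hz => Finset.mem_filter.mpr
          ⟨hK hz, (((hr u hu).mono hsub).symm hT).trans ((hr z hz).mono hsub)⟩
        have hP : piece u ∈ H := Finset.mem_filter.mpr ⟨Finset.mem_image_of_mem _ (hK hu),
          hc.trans_le (Nat.mul_le_mul_left _ (Finset.card_le_card hKP))⟩
        have hsub' : ((↑(Z ∪ H.biUnion sep) : Set X))ᶜ ⊆ (sep (piece u) : Set X)ᶜ := fun z hz h =>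
          hz (Finset.mem_union_right _ (Finset.mem_biUnion.mpr ⟨_, hP, h⟩))
        have h2 := hseph (piece u) y (fun h => hy (Finset.mem_union_right _
          (Finset.mem_biUnion.mpr ⟨_, hP, h⟩))) K hKP fun z hz => (hr z hz).mono hsub'
        have hyZ : y ∉ Z := fun h => hy (Finset.mem_union_left _ h)
        have h3 := hpart y hyZ (piece u) (Finset.filter_subset _ _) fun z hz =>
          ((hr u hu).mono hsub).trans (Finset.mem_filter.mp hz).2
        rw [pow_succ, Nat.mul_assoc] at hc
        have h4 := Nat.mul_le_mul_left (2 ^ i) h2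
        omega

end Vale.Agent.P192.Treewidth
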